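import Vale.Agent.P354CB.Ez

/-!
The relation between two developments is closed.
-/

open Set Filter Topology

namespace Vale.Agent.P354CB37

open Vale.Agent.P354n
open Vale.Agent.P354I (X Dat)
open Vale.Agent.P354J (PDy)
open Vale.Agent.P354CB

/-- Time reversal of a pair. -/
def PREV : Prop := ∀ M N S S' U ψ φ, Pair M N S S' U ψ φ → Pair (rev M) (rev N) S S' U ψ φ

variable {d : Dat}

/-- The slice maps detect neighbourhoods. -/
theorem nbd (A : LD d) {y : X} (hy : y ∈ A.O) {V : Set X} (hV : V ∈ 𝓝 y) :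
    ∀ᶠ x in 𝓝 (A.j y), ∀ z ∈ A.O, A.j z = x → z ∈ V := by
  have h : (Subtype.val ⁻¹' V : Set A.O) ∈ 𝓝 (⟨y, hy⟩ : A.O) :=
    continuous_subtype_val.continuousAt.preimage_mem_nhds hV
  rw [A.h.emb.nhds_eq_comap, mem_comap] at h
  obtain ⟨W, hW, k⟩ := h
  filter_upwards [hW] with x hx z hz e
  exact k (a := ⟨z, hz⟩) (show A.j z ∈ W from e ▸ hx)

/-- A limit of pairs of points of the slices with the same parameter. -/
theorem edge (A B : LD d) {y y' : X} (hy : y ∈ A.O) (hy' : y' ∈ B.O) {G : Set (A.N.pt × B.N.pt)}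
    (hG : ∀ q ∈ G, ∃ z ∈ A.O, z ∈ B.O ∧ A.j z = q.1 ∧ B.j z = q.2)
    (h : (A.j y, B.j y') ∈ closure G) : y = y' := by
  by_contra n
  obtain ⟨V, V', o, o', m, m', dj⟩ := t2_separation n
  have := (nbd A hy (o.mem_nhds m)).prod_nhds (nbd B hy' (o'.mem_nhds m'))
  obtain ⟨q, ⟨a, b⟩, c⟩ := mem_closure_iff_nhds.1 h _ this
  obtain ⟨z, z1, z2, z3, z4⟩ := hG q c
  exact disjoint_left.1 dj (a z z1 z3) (b z z2 z4)

/-- A maximal common development gives a pair. -/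
theorem pair (Z : L0) (T : L3) (hd : PDy d) (A B : LD d) {U : Set A.N.pt} {ψ : A.N.pt → B.N.pt}
    (C : Com A B U ψ) (mx : ∀ x x', Rel A B x x' → x ∈ U) :
    ∃ φ, Pair A.N B.N A.S B.S U ψ φ := by
  obtain ⟨φ, C', k⟩ := T.symm d hd A B U ψ C
  refine ⟨φ, Z.l2.ac d _ _ _ hd A.h, Z.l2.ac d _ _ _ hd B.h, C.hull, C'.hull,
    fun x m => ⟨C.lm x m, k x m, C'.lm _ ⟨x, m, rfl⟩⟩, T.side d hd A B U ψ C, ?_⟩
  rintro _ ⟨y, hy, rfl⟩ q' h
  have hG : ∀ q ∈ gr (U ∩ A.S) ψ, ∃ z ∈ A.O, z ∈ B.O ∧ A.j z = q.1 ∧ B.j z = q.2 := by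
    rintro _ ⟨_, ⟨m, z, hz, rfl⟩, rfl⟩
    exact ⟨z, hz, (C.sl z hz m).1, rfl, (C.sl z hz m).2.symm⟩
  have cl : IsClosed B.S := Z.l1.closed_s B.h.gh.st (Z.l2.g1 _ _ B.h.gh)
  have m : q' ∈ B.S := by
    refine closure_minimal (t := Prod.snd ⁻¹' B.S) (fun q hq => ?_) (cl.preimage continuous_snd) h
    obtain ⟨z, -, z2, -, z4⟩ := hG q hq
    exact ⟨z, z2, z4⟩
  obtain ⟨y', hy', rfl⟩ := m
  obtain rfl := edge A B hy hy' hG h
  exact mx _ _ (T.base d hd A B y hy hy')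

/-- A common development is enlarged by an open set off the slice. -/
theorem grow (Z : L0) {A B : LD d} {U D : Set A.N.pt} {ψ χ : A.N.pt → B.N.pt} (C : Com A B U ψ)
    (o : IsOpen D) (h : Hull A.N A.S (U ∪ D)) (s : ∀ x ∈ D, x ∉ A.S) (l : ∀ x ∈ D, LM χ x)
    (e : EqOn χ ψ (D ∩ U)) {x : A.N.pt} (m : x ∈ D) : ∃ x', Rel A B x x' := by
  classical
  refine ⟨_, U ∪ D, U.piecewise ψ χ, ⟨h, ?_, fun y hy k => ?_⟩, Or.inr m, rfl⟩
  · rintro z (a | a)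
    · refine Z.k1.congr (C.lm z a) ?_
      filter_upwards [C.hull.op.mem_nhds a] with w hw
      exact piecewise_eq_of_mem _ _ _ hw
    · refine Z.k1.congr (l z a) ?_
      filter_upwards [o.mem_nhds a] with w hw
      by_cases b : w ∈ U
      · rw [piecewise_eq_of_mem _ _ _ b, e ⟨hw, b⟩]
      · exact piecewise_eq_of_notMem _ _ _ b
  · have a : A.j y ∈ U := k.resolve_right fun b => s _ b ⟨y, hy, rfl⟩
    rw [piecewise_eq_of_mem _ _ _ a]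
    exact C.sl y hy a

theorem key (Z : L0) (T : L3) (h0 : KEY0) (hR : PREV) : KEY := by
  intro d hd A B
  obtain ⟨U, ψ, C, mx⟩ := T.max d hd A B
  obtain ⟨φ, P⟩ := pair Z T hd A B C fun x x' h => ((mx x x').1 h).1
  have G := Z.l2.g1 _ _ A.h.gh
  have sM := A.h.gh.st
  have e : {q : A.N.pt × B.N.pt | Rel A B q.1 q.2} = gr U ψ := by
    ext ⟨x, x'⟩
    refine (mx x x').trans ⟨?_, ?_⟩
    · rintro ⟨a, rfl⟩
      exact ⟨x, a, rfl⟩
    · rintro ⟨z, a, b⟩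
      obtain ⟨rfl, rfl⟩ := Prod.mk.inj b
      exact ⟨a, rfl⟩
  rw [e]
  refine isClosed_of_closure_subset ?_
  rintro ⟨p, p'⟩ h
  have m : p ∈ U := by
    by_contra n
    by_cases k : p ∈ Pa A.N A.S
    · obtain ⟨D, χ, o, hl, s, ns, l, eq⟩ := h0 _ _ _ _ _ _ _ (hR _ _ _ _ _ _ _ P) p p' h n
        (by rw [Z.l1.b.pa_rev sM]; exact fun a => Z.l1.fu_pa sM G a k)
      rw [Z.l1.b.fu_rev sM] at s
      obtain ⟨x, x1, x2⟩ := not_subset.1 ns
      obtain ⟨x', r⟩ := grow Z C o ((Z.l1.b.hull_rev sM).1 hl)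
        (fun z a b => (L1.s_fu G b).2 (s a)) (fun z a => (Z.k1.rev B.h.gh.st).1 (l z a)) eq x1
      exact x2 ((mx x x').1 r).1
    · obtain ⟨D, χ, o, hl, s, ns, l, eq⟩ := h0 _ _ _ _ _ _ _ P p p' h n k
      obtain ⟨x, x1, x2⟩ := not_subset.1 ns
      obtain ⟨x', r⟩ := grow Z C o hl (fun z a b => (L1.s_fu G b).1 (s a)) l eq x1
      exact x2 ((mx x x').1 r).1
  refine ⟨p, m, Prod.ext rfl ?_⟩
  by_contra n
  obtain ⟨V, V', o, o', a, a', dj⟩ := t2_separation n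
  have := ((C.lm p m).1.eventually (o.mem_nhds a)).prod_nhds
    (show ∀ᶠ z in 𝓝 p', z ∈ V' from o'.mem_nhds a')
  obtain ⟨_, ⟨b, c⟩, z, -, rfl⟩ := mem_closure_iff_nhds.1 h _ this
  exact disjoint_left.1 dj b c

end Vale.Agent.P354CB37
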